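import Crest.Agent.Egy.Digits

set_option autoImplicit false

namespace Crest.Agent.Egy

theorem cube_le_two_pow (l : ℕ) (hl : 10 ≤ l) : l ^ 3 ≤ 2 ^ l := by
  induction l, hl using Nat.le_induction with
  | base => norm_num
  | succ l hl ih =>
    have h1 : (l + 1) ^ 3 ≤ 2 * l ^ 3 := by
      nlinarith [mul_le_mul hl hl (by norm_num) (by positivity), Nat.mul_le_mul hl (le_refl (l*l))]
    calc (l+1) ^ 3 ≤ 2 * l ^ 3 := h1
      _ ≤ 2 * 2 ^ l := by omega
      _ = 2 ^ (l+1) := by rw [pow_succ]; ring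

/-- first step: make the fraction at most `1/2`. -/
theorem start (a b : ℕ) (ha : 1 ≤ a) (hab : a < b) :
    ∃ (N : Multiset ℕ) (A B : ℕ), N.card ≤ 1 ∧ (∀ n ∈ N, 1 ≤ n) ∧ 1 ≤ B ∧ 2 * A ≤ B ∧
      B ≤ 2 * b ∧ A ≤ b ∧ (a:ℚ) / (b:ℚ) = rs N + (A:ℚ) / (B:ℚ) := by
  have hb : (b:ℚ) ≠ 0 := by
    have : 0 < b := by omega
    positivity
  rcases Nat.le_total (2 * a) b with h | h
  · exact ⟨0, a, b, by simp, by simp, by omega, h, by omega, hab.le, by simp⟩
  · refine ⟨{2}, 2 * a - b, 2 * b, by simp, by simp, by omega, by omega, le_rfl, by omega, ?_⟩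
    rw [Nat.cast_sub h]
    simp only [rs, Multiset.map_singleton, Multiset.sum_singleton]
    push_cast
    field_simp
    ring

theorem main_nat (h : KeyLemma) : ∃ C₁ K₁ : ℕ, ∀ (a b : ℕ), K₁ ≤ Nat.log 2 b → 1 ≤ a → a < b →
    Rep ((a:ℚ) / (b:ℚ)) (C₁ * (Nat.log 2 (Nat.log 2 b) + 1)) := by
  obtain ⟨C, s, A, c, K0, H⟩ := h
  refine ⟨C + 8 + 256 * (2 * C + 5) * c * s + 22 * s + A,
    max K0 (2 ^ (10 + 32 * c * (2 * A + 4) + 1)), ?_⟩
  intro a b hK ha hab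
  set K := Nat.log 2 b with hKdef
  have hK0 : K0 ≤ K := (le_max_left _ _).trans hK
  have hK2 : 2 ^ (10 + 32 * c * (2 * A + 4) + 1) ≤ K := (le_max_right _ _).trans hK
  set l := Nat.log 2 K with hl
  have hKpos : 1 ≤ K := le_trans Nat.one_le_two_pow hK2
  have hKne : K ≠ 0 := by omega
  have hl0 : 10 + 32 * c * (2 * A + 4) + 1 ≤ l := by
    rw [hl]
    exact (Nat.le_log_iff_pow_le (by norm_num) hKne).2 hK2
  have hK2l : K < 2 ^ (l + 1) := Nat.lt_pow_succ_log_self (by norm_num) K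
  have h2lK : 2 ^ l ≤ K := Nat.pow_log_le_self 2 hKne
  have hbK : b < 2 ^ (K + 1) := Nat.lt_pow_succ_log_self (by norm_num) b
  obtain ⟨S, W, hS, hSle, hKW, Hst⟩ := H K hK0
  have Hst' : Step K A S W s := Hst
  have hcl : 1 ≤ c * l := by
    by_contra hcon
    have : c * l = 0 := by omega
    rw [this] at hKW
    omega
  set W₁ := min W K with hW₁
  have hKW₁ : K ≤ c * l * W₁ := by
    rcases min_choice W K with h1 | h1
    · rw [hW₁, h1]; exact hKW
    · rw [hW₁, h1]; exact Nat.le_mul_of_pos_left _ hcl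
  set u := W₁ / 32 with hu
  have hu32 : 32 * u ≤ W₁ := Nat.mul_div_le W₁ 32
  have hu33 : W₁ < 32 * (u + 1) := by
    have := Nat.lt_mul_div_succ W₁ (show 0 < 32 by norm_num)
    rw [← hu] at this
    exact this
  have Hst'' : Step K A S (32 * u) s := Hst'.mono (hu32.trans (min_le_left _ _))
  -- largeness
  have hlpos : 0 < l := by omega
  have hlarge : c * l * 32 * (A * (l + 1) + 4) < K := by
    have h1 : c * l * 32 * (A * (l + 1) + 4) ≤ (32 * c * (2 * A + 4)) * l ^ 2 := by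
      have h2 : A * (l + 1) + 4 ≤ (2 * A + 4) * l := by nlinarith
      calc c * l * 32 * (A * (l + 1) + 4) ≤ c * l * 32 * ((2 * A + 4) * l) :=
            Nat.mul_le_mul_left _ h2
        _ = _ := by ring
    have h3 : (32 * c * (2 * A + 4)) * l ^ 2 < l * l ^ 2 :=
      Nat.mul_lt_mul_of_pos_right (by omega) (by positivity)
    have h4 : l * l ^ 2 = l ^ 3 := by ring
    have h5 := cube_le_two_pow l (by omega)
    omega
  have huX : A * (l + 1) + 4 ≤ u := by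
    by_contra hcon
    push Not at hcon
    have h1 : u + 1 ≤ A * (l + 1) + 4 := hcon
    have h2 : K ≤ c * l * (32 * (A * (l+1) + 4)) :=
      hKW₁.trans (Nat.mul_le_mul_left _ (hu33.le.trans (Nat.mul_le_mul_left _ h1)))
    have h3 : c * l * (32 * (A * (l+1) + 4)) = c * l * 32 * (A * (l + 1) + 4) := by ring
    omega
  set E := A * (l + 1) + 1 with hE
  have hKA : K ^ A ≤ 2 ^ (A * (l + 1)) := by
    rw [mul_comm, pow_mul]
    exact Nat.pow_le_pow_left hK2l.le _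
  have hKAE : K ^ A ≤ 2 ^ E := hKA.trans (Nat.pow_le_pow_right (by norm_num) (by omega))
  have h2KA : 2 * K ^ A ≤ 2 ^ (32 * u) := by
    calc 2 * K ^ A ≤ 2 * 2 ^ (A * (l+1)) := Nat.mul_le_mul_left _ hKA
      _ = 2 ^ E := by rw [hE, pow_succ]; ring
      _ ≤ 2 ^ (32 * u) := Nat.pow_le_pow_right (by norm_num) (by omega)
  have hEK : E ≤ K := by
    have : W₁ ≤ K := min_le_right _ _
    omega
  have hiK : 32 * u ≤ 2 ^ (l + 1) := by
    have : W₁ ≤ K := min_le_right _ _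
    omega
  -- M
  set M := S * 2 ^ E with hM
  have hM1 : 1 ≤ M := Nat.mul_pos hS (by positivity)
  have hMle : M ≤ 2 ^ ((C + 1) * K) := by
    calc M ≤ 2 ^ (C * K) * 2 ^ K := Nat.mul_le_mul hSle (Nat.pow_le_pow_right (by norm_num) hEK)
      _ = 2 ^ ((C + 1) * K) := by rw [← pow_add]; congr 1; ring
  set k := l + 1 + (C + 1) with hk
  have hMk : M ≤ 2 ^ (2 ^ k) := by
    refine hMle.trans (Nat.pow_le_pow_right (by norm_num) ?_)
    rw [hk, pow_add, mul_comm]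
    exact Nat.mul_le_mul hK2l.le (Nat.lt_two_pow_self).le
  -- start
  obtain ⟨N₀, A₀, B₀, hN₀c, hN₀, hB₀, h2A, hB₀b, hA₀b, heq₀⟩ := start a b ha hab
  have hgr : A₀ ^ (2 ^ k) * M ≤ B₀ ^ (2 ^ k) := by
    calc A₀ ^ (2 ^ k) * M ≤ A₀ ^ (2 ^ k) * 2 ^ (2 ^ k) := Nat.mul_le_mul_left _ hMk
      _ = (2 * A₀) ^ (2 ^ k) := by rw [mul_pow]; ring
      _ ≤ B₀ ^ (2 ^ k) := Nat.pow_le_pow_left h2A _
  obtain ⟨N₁, A', B', hN₁c, hN₁, hB', hA'M, hB'le, heq₁⟩ := greedy M hM1 k A₀ B₀ hB₀ hgr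
  have hB'2 : B' ≤ 2 ^ ((2 * C + 5) * K) := by
    have h1 : B' ≤ 2 * M ^ 2 * b := by
      refine hB'le.trans (max_le ?_ ?_)
      · refine hB₀b.trans ?_
        have : 1 ≤ M ^ 2 := Nat.one_le_pow _ _ hM1
        calc 2 * b ≤ (2 * M ^ 2) * b := Nat.mul_le_mul_right _ (by omega)
          _ = _ := rfl
      · exact Nat.mul_le_mul_left _ hA₀b
    calc B' ≤ 2 * M ^ 2 * b := h1
      _ ≤ 2 * (2 ^ ((C + 1) * K)) ^ 2 * 2 ^ (K + 1) :=
          Nat.mul_le_mul (Nat.mul_le_mul_left _ (Nat.pow_le_pow_left hMle 2)) hbK.le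
      _ = 2 ^ (1 + (C + 1) * K * 2 + (K + 1)) := by
          rw [← pow_mul, pow_add 2 (1 + (C + 1) * K * 2), pow_add 2 1, pow_one]
      _ ≤ 2 ^ ((2 * C + 5) * K) := by
          apply Nat.pow_le_pow_right (by norm_num)
          have : (2 * C + 5) * K = (C + 1) * K * 2 + 3 * K := by ring
          omega
  set I := (2 * C + 5) * K with hI
  set j := 2 * (2 * C + 5) * (128 * (c * l)) with hj
  have hjI : 2 * I ≤ (u - 2) * j := by
    have h1 : u + 1 ≤ 4 * (u - 2) := by omega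
    have h2 : K ≤ 128 * (c * l) * (u - 2) := by
      calc K ≤ c * l * W₁ := hKW₁
        _ ≤ c * l * (32 * (u + 1)) := Nat.mul_le_mul_left _ hu33.le
        _ ≤ c * l * (32 * (4 * (u - 2))) := Nat.mul_le_mul_left _ (Nat.mul_le_mul_left _ h1)
        _ = 128 * (c * l) * (u - 2) := by ring
    calc 2 * I = 2 * (2 * C + 5) * K := by rw [hI]; ring
      _ ≤ 2 * (2 * C + 5) * (128 * (c * l) * (u - 2)) := Nat.mul_le_mul_left _ h2
      _ = (u - 2) * j := by rw [hj]; ring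
  have hn1 : A' * M * 2 ^ I ≤ B' * 2 ^ I := Nat.mul_le_mul_right _ hA'M
  have hn2 : A' * M * 2 ^ I ≤ 2 ^ (32 * u) * 2 ^ ((u - 2) * j) := by
    calc A' * M * 2 ^ I ≤ B' * 2 ^ I := hn1
      _ ≤ 2 ^ I * 2 ^ I := Nat.mul_le_mul_right _ hB'2
      _ = 2 ^ (2 * I) := by rw [← pow_add]; congr 1; ring
      _ ≤ 2 ^ ((u - 2) * j) := Nat.pow_le_pow_right (by norm_num) hjI
      _ ≤ 2 ^ (32 * u) * 2 ^ ((u - 2) * j) := Nat.le_mul_of_pos_left _ (by positivity)
  have hrep := rep_arch hS hKAE (by omega) Hst'' (by omega) h2KA (l + 1) hiK B' I hB' hB'2 j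
    (A' * M * 2 ^ I) hn1 hn2
  have hfrac : ((A' * M * 2 ^ I : ℕ):ℚ) / ((S * 2 ^ E * (B' * 2 ^ I) : ℕ):ℚ) =
      (A':ℚ) / (B':ℚ) := by
    have hB'q : (B':ℚ) ≠ 0 := by positivity
    have hSq : (S:ℚ) ≠ 0 := by positivity
    rw [hM]
    push_cast
    field_simp
  rw [hfrac] at hrep
  have htot : Rep ((a:ℚ) / (b:ℚ)) (1 + (k + (j * s + ((22 * (l + 1)) * s + E)))) := by
    rw [heq₀, heq₁]
    refine Rep.add ⟨N₀, hN₀c, hN₀, rfl⟩ (Rep.add ⟨N₁, hN₁c, hN₁, rfl⟩ hrep)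
  refine htot.mono ?_
  have e1 : j * s ≤ 256 * (2 * C + 5) * c * s * (l + 1) := by
    have : j * s = 256 * (2 * C + 5) * c * s * l := by rw [hj]; ring
    rw [this]
    exact Nat.mul_le_mul_left _ (Nat.le_succ l)
  have e2 : k ≤ (C + 2) * (l + 1) := by
    have h1 : C + 1 ≤ (C + 1) * (l + 1) := Nat.le_mul_of_pos_right _ (by omega)
    have h2 : (C + 2) * (l + 1) = (C + 1) * (l + 1) + (l + 1) := by ring
    omega
  have e3 : E ≤ (A + 1) * (l + 1) := by
    have h2 : (A + 1) * (l + 1) = A * (l + 1) + (l + 1) := by ring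
    omega
  calc 1 + (k + (j * s + ((22 * (l + 1)) * s + E)))
      ≤ (l + 1) + ((C + 2) * (l + 1) + (256 * (2 * C + 5) * c * s * (l + 1) +
        ((22 * (l + 1)) * s + (A + 1) * (l + 1)))) := by omega
    _ = (C + 4 + 256 * (2 * C + 5) * c * s + 22 * s + A) * (l + 1) := by ring
    _ ≤ (C + 8 + 256 * (2 * C + 5) * c * s + 22 * s + A) * (l + 1) :=
        Nat.mul_le_mul_right _ (by omega)

theorem final (h : KeyLemma) :
    ∃ C : ℝ, ∃ b₀ : ℕ, ∀ (a b : ℕ), b₀ ≤ b → 1 ≤ a → a < b →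
      ∃ S : Finset ℕ, (∀ n ∈ S, 2 ≤ n) ∧ (S.card : ℝ) ≤ C * Real.log (Real.log (b : ℝ)) ∧
        ∑ n ∈ S, (1 : ℚ) / (n : ℚ) = (a : ℚ) / (b : ℚ) := by
  obtain ⟨C₁, K₁, H⟩ := main_nat h
  refine ⟨C₁ * 5, 2 ^ (K₁ + 16), ?_⟩
  intro a b hb ha hab
  have hbpos : 0 < b := by omega
  have hlog : K₁ + 16 ≤ Nat.log 2 b := (Nat.le_log_iff_pow_le (by norm_num) (by omega)).2 hb
  obtain ⟨N, hNc, hN1, hNs⟩ := H a b (by omega) ha hab
  have hq1 : rs N < 1 := by
    rw [hNs, div_lt_one (by exact_mod_cast hbpos)]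
    exact_mod_cast hab
  obtain ⟨S, hSc, hS2, hSs⟩ := distinct N hN1 hq1
  refine ⟨S, hS2, ?_, by rw [hSs, hNs]⟩
  set K := Nat.log 2 b with hK
  have hKpos : 0 < K := by omega
  have h1 : (S.card : ℝ) ≤ C₁ * (Nat.log 2 K + 1) := by
    have := hSc.trans hNc
    exact_mod_cast this
  -- bounds on logs
  have hlog2 : (1:ℝ)/2 ≤ Real.log 2 := by
    have := Real.log_two_gt_d9; linarith
  have hlog2' : Real.log 2 ≤ 1 := by
    have := Real.log_two_lt_d9; linarith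
  have hlb : (K:ℝ) * Real.log 2 ≤ Real.log b := by
    have h2 : (2:ℝ) ^ K ≤ b := by exact_mod_cast Nat.pow_log_le_self 2 (by omega)
    have h3 := Real.log_le_log (by positivity) h2
    rwa [Real.log_pow] at h3
  have hlb2 : (K:ℝ) / 2 ≤ Real.log b := by
    have : (K:ℝ) * (1/2) ≤ K * Real.log 2 := mul_le_mul_of_nonneg_left hlog2 (by positivity)
    linarith
  have hL8 : (8:ℝ) ≤ Real.log b := by
    have : (16:ℝ) ≤ K := by exact_mod_cast (by omega : 16 ≤ K)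
    linarith
  have hLL1 : 1 ≤ Real.log (Real.log b) := by
    rw [Real.le_log_iff_exp_le (by linarith)]
    have := Real.exp_one_lt_d9
    linarith
  have hlK : (Nat.log 2 K : ℝ) * Real.log 2 ≤ Real.log K := by
    have h2 : (2:ℝ) ^ (Nat.log 2 K) ≤ K := by exact_mod_cast Nat.pow_log_le_self 2 (by omega)
    have h3 := Real.log_le_log (by positivity) h2
    rwa [Real.log_pow] at h3
  have hK2 : Real.log K ≤ Real.log (Real.log b) + 1 := by
    have h2 : (K:ℝ) ≤ 2 * Real.log b := by linarith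
    have h3 := Real.log_le_log (by positivity) h2
    rw [Real.log_mul (by norm_num) (by positivity)] at h3
    linarith
  have h4 : (Nat.log 2 K : ℝ) ≤ 4 * Real.log (Real.log b) := by
    have h5 : (Nat.log 2 K : ℝ) * (1/2) ≤ Nat.log 2 K * Real.log 2 :=
      mul_le_mul_of_nonneg_left hlog2 (by positivity)
    linarith
  calc (S.card : ℝ) ≤ C₁ * (Nat.log 2 K + 1) := h1
    _ ≤ C₁ * (5 * Real.log (Real.log b)) := by
        apply mul_le_mul_of_nonneg_left _ (by positivity)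
        linarith
    _ = C₁ * 5 * Real.log (Real.log b) := by ring

end Crest.Agent.Egy
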