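import Crest.Agent.Egy.Outer

set_option autoImplicit false

namespace Crest.Agent.Egy

/-- The step property furnished by the key lemma. -/
def Step (K A S W s : ℕ) : Prop :=
  ∀ m : ℕ, K ^ A ≤ m → m ≤ 2 ^ W → ∃ w : ℕ, w ≤ m ∧ (m - w) ^ 32 ≤ m ^ 31 ∧
      Rep ((w:ℚ) / (S:ℚ)) s

theorem Step.mono {K A S W W' s : ℕ} (h : Step K A S W s) (hW : W' ≤ W) : Step K A S W' s :=
  fun m h1 h2 => h m h1 (h2.trans (Nat.pow_le_pow_right (by norm_num) hW))

/-- final phase -/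
theorem rep_small {K A S W s E : ℕ} (hS : 1 ≤ S) (hE : K ^ A ≤ 2 ^ E) (H : Step K A S W s) :
    ∀ (j m : ℕ), m ^ (31 ^ j) ≤ 2 ^ (32 ^ j) → m ≤ 2 ^ W → 1 ≤ E →
      Rep ((m:ℚ) / ((S * 2 ^ E : ℕ):ℚ)) (j * s + E) := by
  intro j
  induction j with
  | zero =>
    intro m h1 _ hE1
    have hm : m ≤ 2 := by simpa using h1
    rcases Nat.lt_or_ge m (2 ^ E) with h | h
    · simpa using rep_binary S hS E m h
    · have h2 : (2:ℕ) ^ 1 ≤ 2 ^ E := Nat.pow_le_pow_right (by norm_num) hE1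
      have h3 : m = 2 ^ E := le_antisymm (by omega) h
      have : ((m:ℚ) / ((S * 2 ^ E : ℕ):ℚ)) = 1 / (S:ℚ) := by
        rw [h3]; push_cast; field_simp
      rw [this]
      exact (Rep.one S hS).mono (by omega)
  | succ j ih =>
    intro m h1 h2 hE1
    rcases Nat.lt_or_ge m (K ^ A) with h | h
    · exact (rep_binary S hS E m (h.trans_le hE)).mono (by omega)
    · obtain ⟨w, hw, hw32, hrep⟩ := H m h h2
      have h3 : (m - w) ^ (31 ^ j) ≤ 2 ^ (32 ^ j) := by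
        have h4 : ((m - w) ^ (31 ^ j)) ^ 32 ≤ (2 ^ (32 ^ j)) ^ 32 := by
          calc ((m - w) ^ (31 ^ j)) ^ 32 = ((m - w) ^ 32) ^ (31 ^ j) := by
                rw [← pow_mul, ← pow_mul, mul_comm]
            _ ≤ (m ^ 31) ^ (31 ^ j) := Nat.pow_le_pow_left hw32 _
            _ = m ^ (31 ^ (j+1)) := by rw [← pow_mul]; congr 1; ring
            _ ≤ 2 ^ (32 ^ (j+1)) := h1
            _ = (2 ^ (32 ^ j)) ^ 32 := by rw [← pow_mul, pow_succ]
        exact (Nat.pow_le_pow_iff_left (by norm_num)).1 h4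
      have h5 := ih (m - w) h3 ((Nat.sub_le _ _).trans h2) hE1
      have h6 := hrep.div (2 ^ E) (Nat.one_le_two_pow)
      have h7 : ((m:ℚ) / ((S * 2 ^ E : ℕ):ℚ)) = (w:ℚ) / (S:ℚ) / ((2 ^ E : ℕ) : ℚ) +
          (((m - w : ℕ)):ℚ) / ((S * 2 ^ E : ℕ):ℚ) := by
        rw [Nat.cast_sub hw, div_div]
        push_cast
        rw [← add_div]
        congr 1
        ring
      rw [h7]
      exact (h6.add h5).mono (by
        have : (j + 1) * s = j * s + s := by ring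
        omega)

theorem rep_small' {K A S W s E : ℕ} (hS : 1 ≤ S) (hE : K ^ A ≤ 2 ^ E) (hE1 : 1 ≤ E)
    (H : Step K A S W s) (i : ℕ) (hi : W ≤ 2 ^ i) (m : ℕ) (hm : m ≤ 2 ^ W) :
      Rep ((m:ℚ) / ((S * 2 ^ E : ℕ):ℚ)) ((22 * i) * s + E) := by
  apply rep_small hS hE H _ m _ hm hE1
  have h1 : (2:ℕ) ^ i * 31 ^ (22 * i) ≤ 32 ^ (22 * i) := by
    rw [pow_mul, pow_mul, ← mul_pow]
    exact Nat.pow_le_pow_left (by norm_num) _
  calc m ^ (31 ^ (22 * i)) ≤ (2 ^ W) ^ (31 ^ (22 * i)) := Nat.pow_le_pow_left hm _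
    _ = 2 ^ (W * 31 ^ (22 * i)) := by rw [← pow_mul]
    _ ≤ 2 ^ (32 ^ (22 * i)) := by
        apply Nat.pow_le_pow_right (by norm_num)
        exact (Nat.mul_le_mul_right _ hi).trans h1

/-- divisors of `B 2^I` at every scale -/
theorem exists_div (B I W n : ℕ) (hB : 1 ≤ B) (hBI : B ≤ 2 ^ I) (hn : 2 ^ W < n)
    (hn' : n ≤ B * 2 ^ I) : ∃ D : ℕ, D ∣ B * 2 ^ I ∧ 1 ≤ D ∧ n ≤ D * 2 ^ W ∧ D * 2 ^ W < 2 * n := by
  have key : ∀ B₀ : ℕ, 1 ≤ B₀ → B₀ * 2 ^ W < n → n ≤ B₀ * 2 ^ I * 2 ^ W →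
      ∃ j, j ≤ I ∧ n ≤ B₀ * 2 ^ j * 2 ^ W ∧ B₀ * 2 ^ j * 2 ^ W < 2 * n := by
    intro B₀ hB₀ h1 h2
    have hex : ∃ j, n ≤ B₀ * 2 ^ j * 2 ^ W := ⟨I, h2⟩
    classical
    refine ⟨Nat.find hex, Nat.find_min' hex h2, Nat.find_spec hex, ?_⟩
    have hne : Nat.find hex ≠ 0 := by
      intro h0
      have := Nat.find_spec hex
      rw [h0] at this
      simp at this
      omega
    obtain ⟨j, hj⟩ := Nat.exists_eq_succ_of_ne_zero hne
    have hmin := Nat.find_min hex (m := j) (by omega)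
    push Not at hmin
    rw [hj]
    calc B₀ * 2 ^ (j+1) * 2 ^ W = 2 * (B₀ * 2 ^ j * 2 ^ W) := by rw [pow_succ]; ring
      _ < 2 * n := by omega
  rcases Nat.le_total n (1 * 2 ^ I * 2 ^ W) with h | h
  · obtain ⟨j, hj, h1, h2⟩ := key 1 le_rfl (by simpa using hn) h
    refine ⟨1 * 2 ^ j, ?_, ?_, h1, h2⟩
    · rw [one_mul]
      exact Dvd.dvd.mul_left (pow_dvd_pow 2 hj) B
    · rw [one_mul]; exact Nat.one_le_two_pow
  · rcases Nat.lt_or_ge (B * 2 ^ W) n with h3 | h3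
    · obtain ⟨j, hj, h1, h2⟩ := key B hB h3 (hn'.trans (Nat.le_mul_of_pos_right _ (by positivity)))
      refine ⟨B * 2 ^ j, ?_, ?_, h1, h2⟩
      · exact Nat.mul_dvd_mul_left B (pow_dvd_pow 2 hj)
      · exact Nat.mul_pos hB (by positivity)
    · -- n ≤ B 2^W ≤ 2^I 2^W ≤ n, so equality, take D = B
      have h4 : B * 2 ^ W ≤ 1 * 2 ^ I * 2 ^ W := by
        rw [one_mul]; exact Nat.mul_le_mul_right _ hBI
      refine ⟨B, Dvd.intro _ rfl, hB, h3, ?_⟩
      have h5 : B * 2 ^ W ≤ n := h4.trans h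
      have : 0 < 2 ^ W := by positivity
      omega

/-- archimedean phase -/
theorem rep_arch {K A S u s E : ℕ} (hS : 1 ≤ S) (hE : K ^ A ≤ 2 ^ E) (hE1 : 1 ≤ E)
    (H : Step K A S (32 * u) s) (hu : 2 ≤ u) (hKA : 2 * K ^ A ≤ 2 ^ (32 * u))
    (i : ℕ) (hi : 32 * u ≤ 2 ^ i) (B I : ℕ) (hB : 1 ≤ B) (hBI : B ≤ 2 ^ I) :
    ∀ (j n : ℕ), n ≤ B * 2 ^ I → n ≤ 2 ^ (32 * u) * 2 ^ ((u - 2) * j) →
      Rep ((n:ℚ) / ((S * 2 ^ E * (B * 2 ^ I) : ℕ):ℚ)) (j * s + ((22 * i) * s + E)) := by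
  have hfin : ∀ (j n : ℕ), n ≤ 2 ^ (32 * u) →
      Rep ((n:ℚ) / ((S * 2 ^ E * (B * 2 ^ I) : ℕ):ℚ)) (j * s + ((22 * i) * s + E)) := by
    intro j n hn
    have h1 := (rep_small' hS hE hE1 H i hi n hn).div (B * 2 ^ I)
      (Nat.mul_pos hB (by positivity))
    rw [div_div, ← Nat.cast_mul] at h1
    exact h1.mono (by omega)
  intro j
  induction j with
  | zero =>
    intro n hn h1
    exact hfin 0 n (by simpa using h1)
  | succ j ih =>
    intro n hn h1
    rcases Nat.lt_or_ge (2 ^ (32 * u)) n with h | h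
    · obtain ⟨D, ⟨D', hDD⟩, hD1, hD2, hD3⟩ := exists_div B I (32 * u) n hB hBI h hn
      have hD'1 : 1 ≤ D' := by
        rcases Nat.eq_zero_or_pos D' with h0 | h0
        · rw [h0] at hDD
          have : 0 < B * 2 ^ I := Nat.mul_pos hB (by positivity)
          omega
        · exact h0
      set m := n / D with hm
      have hmu : m ≤ 2 ^ (32 * u) := by
        rw [hm]
        apply Nat.div_le_of_le_mul
        exact hD2
      have hml : K ^ A ≤ m := by
        rw [hm, Nat.le_div_iff_mul_le hD1]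
        have : D * (2 * K ^ A) ≤ D * 2 ^ (32 * u) := Nat.mul_le_mul_left _ hKA
        have h3 : 2 * (K ^ A * D) = D * (2 * K ^ A) := by ring
        omega
      obtain ⟨w, hw, hw32, hrep⟩ := H m hml hmu
      have hdm : D * m + n % D = n := Nat.div_add_mod n D
      have hmod : n % D < D := Nat.mod_lt _ hD1
      have hwD : w * D ≤ n := by
        calc w * D ≤ m * D := Nat.mul_le_mul_right _ hw
          _ ≤ n := Nat.div_mul_le_self n D
      have hmw : m - w ≤ 2 ^ (31 * u) := by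
        have h4 : (m - w) ^ 32 ≤ (2 ^ (31 * u)) ^ 32 := by
          calc (m - w) ^ 32 ≤ m ^ 31 := hw32
            _ ≤ (2 ^ (32 * u)) ^ 31 := Nat.pow_le_pow_left hmu _
            _ = (2 ^ (31 * u)) ^ 32 := by rw [← pow_mul, ← pow_mul]; congr 1; ring
        exact (Nat.pow_le_pow_iff_left (by norm_num)).1 h4
      have hn'1 : n - w * D ≤ (2 ^ (31 * u) + 1) * D := by
        have h5 : n - w * D = (m - w) * D + n % D := by
          rw [Nat.sub_mul]
          have : w * D ≤ m * D := Nat.mul_le_mul_right _ hw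
          have : D * m = m * D := mul_comm _ _
          omega
        rw [h5, add_mul, one_mul]
        exact Nat.add_le_add (Nat.mul_le_mul_right _ hmw) hmod.le
      have hn'2 : (n - w * D) * 2 ^ (u - 2) ≤ n := by
        have h6 : 2 ^ (31 * u) + 1 ≤ 2 * 2 ^ (31 * u) := by
          have : 1 ≤ 2 ^ (31 * u) := Nat.one_le_two_pow
          omega
        have h7 : (n - w * D) * 2 ^ (u - 2) * (4 * 2 ^ (31 * u)) ≤ n * (4 * 2 ^ (31 * u)) := by
          calc (n - w * D) * 2 ^ (u - 2) * (4 * 2 ^ (31 * u))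
              = (n - w * D) * 2 ^ (32 * u) := by
                have : (2:ℕ) ^ (32 * u) = 2 ^ (u - 2) * (4 * 2 ^ (31 * u)) := by
                  rw [show (4:ℕ) = 2 ^ 2 by norm_num, ← pow_add, ← pow_add]
                  congr 1
                  omega
                rw [this]; ring
            _ ≤ ((2 ^ (31 * u) + 1) * D) * 2 ^ (32 * u) := Nat.mul_le_mul_right _ hn'1
            _ ≤ ((2 * 2 ^ (31 * u)) * D) * 2 ^ (32 * u) :=
                Nat.mul_le_mul_right _ (Nat.mul_le_mul_right _ h6)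
            _ = (2 * 2 ^ (31 * u)) * (D * 2 ^ (32 * u)) := by ring
            _ ≤ (2 * 2 ^ (31 * u)) * (2 * n) := Nat.mul_le_mul_left _ hD3.le
            _ = n * (4 * 2 ^ (31 * u)) := by ring
        exact Nat.le_of_mul_le_mul_right h7 (by positivity)
      have hn'3 : n - w * D ≤ 2 ^ (32 * u) * 2 ^ ((u - 2) * j) := by
        have h8 : (n - w * D) * 2 ^ (u - 2) ≤ (2 ^ (32 * u) * 2 ^ ((u - 2) * j)) * 2 ^ (u - 2) := by
          refine hn'2.trans (h1.trans (le_of_eq ?_))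
          rw [mul_add, mul_one, pow_add]; ring
        exact Nat.le_of_mul_le_mul_right h8 (by positivity)
      have h9 := ih (n - w * D) ((Nat.sub_le _ _).trans hn) hn'3
      have h10 := hrep.div (2 ^ E * D') (Nat.mul_pos (by positivity) hD'1)
      have h11 : ((n:ℚ) / ((S * 2 ^ E * (B * 2 ^ I) : ℕ):ℚ)) =
          (w:ℚ) / (S:ℚ) / ((2 ^ E * D' : ℕ) : ℚ) +
          ((n - w * D : ℕ):ℚ) / ((S * 2 ^ E * (B * 2 ^ I) : ℕ):ℚ) := by
        have hDq : (D:ℚ) ≠ 0 := by positivity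
        have hD'q : (D':ℚ) ≠ 0 := by positivity
        have hSq : (S:ℚ) ≠ 0 := by positivity
        rw [hDD, Nat.cast_sub hwD, div_div]
        push_cast
        field_simp
        ring
      rw [h11]
      exact (h10.add h9).mono (by
        have : (j + 1) * s = j * s + s := by ring
        omega)
    · exact hfin (j+1) n h

end Crest.Agent.Egy
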